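import Vale.Agent.P272.ALExt
import Vale.Agent.P272.ALLin

/-! P267, the drift: elliptic operators with smooth coefficients. -/

open MeasureTheory Set Filter Topology Metric Matrix
open scoped ContDiff

noncomputable section

namespace Vale.Agent.P267

open Vale.Agent.P271 Vale.Agent.P227 Vale.Agent.P272.AL

set_option linter.unusedSectionVars false

variable {n : ℕ} {X : Type} [TopologicalSpace X] [T2Space X] [CompactSpace X]
  [MeasurableSpace X] {M : Model n X}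

theorem DC_ell {m : ℕ} {A : E m → Mat m} (hc : ∀ i j, Continuous fun x => A x i j) {K : Set (E m)}
    (hK : IsCompact K) (hp : ∀ x, ∀ v : Fin m → ℝ, v ≠ 0 → 0 < v ⬝ᵥ A x *ᵥ v) :
    ∃ c, 0 < c ∧ ∀ x ∈ K, ∀ v : Fin m → ℝ, c * (v ⬝ᵥ v) ≤ v ⬝ᵥ A x *ᵥ v := by
  have h0 : ∀ v : Fin m → ℝ, v ≠ 0 → 0 < v ⬝ᵥ v := fun v hv =>
    (Finset.sum_nonneg fun i _ => mul_self_nonneg (v i)).lt_of_ne'
      fun h => hv (dotProduct_self_eq_zero.1 h)
  have h1 : ∀ v ∈ sphere (0 : Fin m → ℝ) 1, v ≠ 0 := fun v hv =>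
    ne_of_mem_sphere hv one_ne_zero
  have hA : Continuous A := continuous_matrix hc
  obtain ⟨c, hc0, H⟩ := (hK.prod (isCompact_sphere (0 : Fin m → ℝ) 1)).exists_forall_le'
    (f := fun q => q.2 ⬝ᵥ A q.1 *ᵥ q.2 / q.2 ⬝ᵥ q.2) (a := 0)
    ((continuous_snd.dotProduct ((hA.comp continuous_fst).matrix_mulVec
      continuous_snd)).continuousOn.div (continuous_snd.dotProduct continuous_snd).continuousOn
      fun q hq => (h0 _ (h1 _ hq.2)).ne') fun q hq => div_pos (hp _ _ (h1 _ hq.2)) (h0 _ (h1 _ hq.2))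
  refine ⟨c, hc0, fun x hx v => ?_⟩
  by_cases hv : v = 0
  · simp [hv]
  have h2 : ‖v‖ ≠ 0 := norm_ne_zero_iff.2 hv
  have h3 := H (x, ‖v‖⁻¹ • v) ⟨hx, by simp [norm_smul, h2]⟩
  simp only [mulVec_smul, dotProduct_smul, smul_dotProduct, smul_eq_mul,
    mul_div_mul_left _ _ (inv_ne_zero h2)] at h3
  exact (le_div_iff₀ (h0 v hv)).1 h3

theorem DC_pd {m : ℕ} {f : E m → ℝ} {x : E m} (h : ContDiffAt ℝ ∞ f x) (i : Fin m) :
    ContDiffAt ℝ ∞ (pd i f) x := (h.fderiv_right (m := ∞) (by simp)).clm_apply contDiffAt_const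

theorem DC_max {φ : Cn n → ℝ} {x : E (n + n)} (h : ContDiffAt ℝ ∞ φ (Lc n x))
    (hm : IsLocalMax φ (Lc n x)) (v : Fin (n + n) → ℝ) :
    v ⬝ᵥ P227.hs (fun y => φ (Lc n y)) x *ᵥ v ≤ 0 := by
  have h1 : fderiv ℝ (fun y => φ (Lc n y))
      = fun y => (fderiv ℝ φ (Lc n y)).comp (Lc n : E (n + n) →L[ℝ] Cn n) :=
    funext fun y => (Lc n).comp_right_fderiv
  have h3 := ((((h.fderiv_right (m := ∞) (by simp)).differentiableAt (by simp)).hasFDerivAt.comp
    x (Lc n).hasFDerivAt).clm_comp (hasFDerivAt_const (Lc n : E (n + n) →L[ℝ] Cn n) x)).fderiv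
  refine (ALCx_bil (f := fun y => φ (Lc n y)) (h.comp x (Lc n).contDiff.contDiffAt)
    (WithLp.toLp 2 v) (WithLp.toLp 2 v)).trans_le ?_
  rw [h1]
  refine (DFunLike.congr_fun (DFunLike.congr_fun h3 _) _).trans_le ?_
  simpa using P272.Loc_max h hm _

theorem ext_op (C : Cut M) (B : M.ι → X → Mat (n + n)) (D : (X → ℝ) → X → ℝ)
    (hs : ∀ a i j, M.SmOn a fun p => B a p i j)
    (hp : ∀ a, ∀ p ∈ (M.e a).source, (B a p).IsSymm ∧ ∀ v : Fin (n + n) → ℝ, v ≠ 0 →
      0 < v ⬝ᵥ B a p *ᵥ v)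
    (hD : ∀ u, M.Sm u → ∀ a, ∀ p ∈ (M.e a).source,
      D u p = ct (B a p) (P227.hs (fun x => M.loc a u (Lc n x)) (ra M a p))) :
    ∃ (c K : ℝ) (A : M.ι → E (n + n) → Mat (n + n)), 0 < c ∧ 0 ≤ K ∧ Op C c K A D := by
  set ψ : M.ι → E (n + n) → ℝ := fun a => lz M (C.ψ a) a fun _ => 1 with hψ
  set A : M.ι → E (n + n) → Mat (n + n) := fun a x =>
    ψ a x • B a ((M.e a).symm (Lc n x)) + (1 - ψ a x) • 1 with hA
  have hk : ∀ a k i j, Hk k fun x => A a x i j := fun a k i j =>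
    ((tf_loc (C.bψ a) (hs a i j)).hk k).add
      (((Hk.const k 1).sub ((lz_tf (C.bψ a) (sm_const M 1)).hk k)).mul (Hk.const k _))
  have h1 : ∀ a x, ψ a x = 0 → A a x = 1 := fun a x h => by
    simp only [hA, h, zero_smul, sub_zero, one_smul, zero_add]
  have v0 : ∀ v : Fin (n + n) → ℝ, 0 ≤ v ⬝ᵥ v := fun v =>
    Finset.sum_nonneg fun i _ => mul_self_nonneg (v i)
  have h2 : ∀ a x, (A a x).IsSymm ∧ ∀ v : Fin (n + n) → ℝ, v ≠ 0 → 0 < v ⬝ᵥ A a x *ᵥ v := by
    intro a x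
    by_cases h : ψ a x = 0
    · rw [h1 a x h]
      exact ⟨isSymm_one, fun v hv => by
        rw [one_mulVec]
        exact (v0 v).lt_of_ne' fun h => hv (dotProduct_self_eq_zero.1 h)⟩
    · obtain ⟨p, hp', -, rfl⟩ := lz_ne h
      simp only [hA, Lc_ra, (M.e a).left_inv hp']
      refine ⟨((hp a p hp').1.smul _).add (isSymm_one.smul _), fun v hv => ?_⟩
      simp only [add_mulVec, smul_mulVec, dotProduct_add, dotProduct_smul, smul_eq_mul, one_mulVec]
      exact add_pos_of_pos_of_nonneg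
        (mul_pos ((alext_01 C a _).1.lt_of_ne' h) ((hp a p hp').2 v hv))
        (mul_nonneg (sub_nonneg.2 (alext_01 C a _).2) (v0 v))
  have h3 : ∀ a, ∀ᶠ c in 𝓝[>] (0 : ℝ), Ell (A a) c := fun a => by
    obtain ⟨c, hc, H⟩ := DC_ell (fun i j => (hk a 0 i j).choose_spec.continuous)
      (ALCut_cpt (C.bψ a)) fun x => (h2 a x).2
    filter_upwards [Ioo_mem_nhdsGT (lt_min hc one_pos)] with t ht x
    refine ⟨(h2 a x).1, fun v => ?_⟩
    by_cases h : ψ a x = 0
    · rw [h1 a x h, one_mulVec]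
      exact mul_le_of_le_one_left (v0 v) (ht.2.le.trans (min_le_right _ _))
    · exact (mul_le_mul_of_nonneg_right (ht.2.le.trans (min_le_left _ _)) (v0 v)).trans
        (H x (alext_mem C h) v)
  have h4 : ∀ a, ∀ᶠ K in atTop, HM (A a) K := fun a => by
    obtain ⟨K, -, H⟩ := exists_HM fun i j => hk a 0 i j
    filter_upwards [eventually_ge_atTop K] with t ht i j using (H i j).mono ht
  obtain ⟨c, e1, e2⟩ := ((eventually_all.2 h3).and self_mem_nhdsWithin).exists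
  obtain ⟨K, e3, e4⟩ := ((eventually_all.2 h4).and (eventually_ge_atTop 0)).exists
  have h5 : ∀ {a p} {u : X → ℝ}, p ∈ (M.e a).source → M.SmOn a u →
      ContDiffAt ℝ ∞ (M.loc a u) (M.e a p) := fun h hu =>
    hu.contDiffAt ((M.e _).open_target.mem_nhds ((M.e _).map_source h))
  refine ⟨c, K, A, e2, e4, e1, e3, hk, fun u hu a p hp' => ?_, fun u hu => ?_, fun u hu p hm => ?_⟩
  · have h := alext_src C hp'
    rw [hD u hu a p h, hz, hs_congr (lz_ev C hp' u)]
    simp only [hA, hψ, lz_ra h, (C.oneψ a p hp').self_of_nhds, Lc_ra, mul_one, one_smul,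
      sub_self, zero_smul, add_zero, (M.e a).left_inv h]
  · refine Atl.sm_of_local fun p => ?_
    obtain ⟨a, h⟩ := M.cover p
    have c1 : ContDiffAt ℝ ∞ (fun x => M.loc a u (Lc n x)) ((Lc n).symm (M.e a p)) :=
      ContDiffAt.comp (g := M.loc a u) _ (by
        rw [(Lc n).apply_symm_apply]
        exact h5 h (hu a)) (Lc n).contDiff.contDiffAt
    refine ⟨a, h, ContDiffAt.congr_of_eventuallyEq (f := fun z => ∑ i, ∑ j,
      M.loc a (fun p => B a p i j) z * pd i (pd j fun x => M.loc a u (Lc n x)) ((Lc n).symm z))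
      (ContDiffAt.sum fun i _ => ContDiffAt.sum fun j _ => (h5 h (hs a i j)).mul
        ((DC_pd (DC_pd c1 j) i).comp _ (Lc n).symm.contDiff.contDiffAt)) ?_⟩
    filter_upwards [(M.e a).open_target.mem_nhds ((M.e a).map_source h)] with z hz
    rw [Atl.loc, hD u hu a _ ((M.e a).map_target hz), ra, (M.e a).right_inv hz]
    rfl
  · obtain ⟨a, h⟩ := M.cover p
    rw [hD u hu a p h]
    refine psd_contract (PosSemidef.of_dotProduct_mulVec_nonneg (hp a p h).1 fun v => ?_)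
      (DC_max (by rw [Lc_ra]; exact h5 h (hu a)) (Eventually.of_forall fun y => ?_))
    · by_cases hv : v = 0
      · simp [hv]
      · exact ((hp a p h).2 v hv).le
    · rw [Lc_ra, M.loc_e a u h]
      exact hm _

end Vale.Agent.P267
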