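import Vale.Agent.P272.ALLin

/-! P267, the drift: the discounted problem. -/

open MeasureTheory Set Filter Topology Metric Matrix
open scoped ContDiff

noncomputable section

namespace Vale.Agent.P267

open Vale.Agent.P271 Vale.Agent.P227 Vale.Agent.P272.AL

set_option linter.unusedSectionVars false

variable {n : ℕ} {X : Type} [TopologicalSpace X] [T2Space X] [CompactSpace X]
  [MeasurableSpace X] {M : Model n X}

variable {C : Cut M} {c K : ℝ} {A : M.ι → E (n + n) → Mat (n + n)} {D : (X → ℝ) → X → ℝ}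

theorem DE_scale (h : Op C c K A D) {t : ℝ} (ht : 0 < t) :
    Op C (t * c) (|t| * K) (fun a x => t • A a x) fun u p => t * D u p where
  ell a x := ⟨(h.ell a x).1.smul t, fun v => by
    rw [smul_mulVec, dotProduct_smul, smul_eq_mul, mul_assoc]
    exact mul_le_mul_of_nonneg_left ((h.ell a x).2 v) ht.le⟩
  hm a i j := (h.hm a i j).const_mul t
  hk a k i j := (Hk.const k t).mul (h.hk a k i j)
  eq u hu a p hp := by rw [h.eq u hu a p hp, smul_ct]
  sm u hu := sm_mul (sm_const M t) (h.sm u hu)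
  max u hu p hp := mul_nonpos_of_nonneg_of_nonpos ht.le (h.max u hu p hp)

theorem op_disc (hn : 0 < n) (hc : 0 < c) (hK : 0 ≤ K) (h : Op C c K A D) {ε : ℝ} (hε : 0 < ε)
    {f : X → ℝ} (hf : M.Sm f) : ∃ u, M.Sm u ∧ ∀ p, D u p + f p = ε * u p := by
  have ht := inv_pos.2 hε
  obtain ⟨C₀, -, H⟩ := op_solve hn C (mul_pos ht hc) (mul_nonneg (abs_nonneg ε⁻¹) hK)
  have hg := sm_mul (sm_const M (-ε⁻¹)) hf
  obtain ⟨N, hN, h1⟩ := nk_of_sm C 0 hg
  obtain ⟨u, g1, -, g2⟩ := H _ _ (DE_scale h ht) _ N hN hg h1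
  refine ⟨u, g1, fun p => ?_⟩
  have e : u p = ε⁻¹ * (D u p + f p) := by linarith [g2 p]
  rw [e, mul_inv_cancel_left₀ hε.ne']

theorem op_apriori (hn : 0 < n) (hc : 0 < c) (hK : 0 ≤ K) (h : Op C c K A D) {f : X → ℝ}
    (hf : M.Sm f) : ∃ N : ℝ, ∀ (W : X → ℝ) (s ε : ℝ), M.Sm W → (∀ p, |W p| ≤ 1) → |s| ≤ 1 →
      0 ≤ ε → ε ≤ 1 → (∀ p, D W p + s * f p = ε * W p) → Nk C 2 W N := by
  obtain ⟨C₀, hC, H⟩ := op_solve hn C hc hK
  obtain ⟨C₂, hC₂, hI⟩ := nk_interp C (ε := 1 / (2 * C₀)) (by positivity)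
  obtain ⟨F, hF, h1⟩ := nk_of_sm C 0 hf
  refine ⟨1 + 2 * (C₀ * (C₂ + F)), fun W s ε hW hb hs h0 h2 he => ?_⟩
  have step : ∀ N, 0 ≤ N → Nk C 2 W N → Nk C 2 W (N / 2 + C₀ * (C₂ + F)) := fun N hN h3 => by
    have h4 : |ε - 1| ≤ 1 := abs_le.2 ⟨by linarith, by linarith⟩
    have h5 := (((hI W N 1 hN zero_le_one h3 hb).const_mul (ε - 1)).sub (h1.const_mul s)).mono
      (add_le_add (mul_le_of_le_one_left (by positivity) h4) (mul_le_of_le_one_left hF hs))
    obtain ⟨u, g1, g2, g3⟩ := H A D h _ _ (by positivity)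
      (sm_sub (sm_mul (sm_const M _) hW) (sm_mul (sm_const M _) hf)) h5
    have e : u = W := funext fun p => by
      have h6 := op_max (s := 0) h one_pos (sm_sub g1 hW) (fun q => by
        rw [h.sub g1 hW, abs_nonpos_iff]
        linarith [g3 q, he q]) p
      rw [zero_div, abs_nonpos_iff] at h6
      linarith
    refine (e ▸ g2).mono (le_of_eq ?_)
    field_simp
    ring
  obtain ⟨N, hN, h3⟩ := nk_of_sm C 2 hW
  have key : ∀ j : ℕ, Nk C 2 W (N * (1 / 2) ^ j + 2 * (C₀ * (C₂ + F))) := fun j => by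
    induction j with
    | zero => exact h3.mono (by rw [pow_zero, mul_one]; exact le_add_of_nonneg_right (by positivity))
    | succ j ih => exact (step _ (by positivity) ih).mono (le_of_eq (by ring))
  have t := (tendsto_pow_atTop_nhds_zero_of_lt_one (r := (1 / 2 : ℝ)) (by norm_num)
    (by norm_num)).const_mul N
  rw [mul_zero] at t
  obtain ⟨j, hj⟩ := (t.eventually (eventually_le_nhds one_pos)).exists
  exact (key j).mono (by linarith)

theorem nk_move {W : ℕ → X → ℝ} {N : ℝ} (hW : ∀ j, Nk C 2 (W j) N) {u : X → ℝ}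
    (hu : ∀ p, Tendsto (fun j => W j p) UF (𝓝 (u p))) {x : ℕ → X} {p : X}
    (hx : Tendsto x UF (𝓝 p)) : Tendsto (fun j => W j (x j)) UF (𝓝 (u p)) := by
  obtain ⟨a, ha⟩ := exists_rho M p
  have hp := M.ρ_supp a ha
  have h1 : Tendsto (fun j => ra M a (x j)) UF (𝓝 (ra M a p)) :=
    ((Lc n).symm.continuous.tendsto _).comp (((M.e a).continuousAt hp).tendsto.comp hx)
  have h2 := (tendsto_iff_norm_sub_tendsto_zero.1 h1).sqrt.const_mul N
  rw [Real.sqrt_zero, mul_zero] at h2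
  have h3 : Tendsto (fun j => W j (x j) - W j p) UF (𝓝 0) := by
    refine squeeze_zero_norm' ?_ h2
    filter_upwards [hx.eventually (C.oneχ a p ha),
      hx.eventually ((M.e a).open_source.mem_nhds hp)] with j g1 g2
    have g3 := (hW j a).hn.2 (ra M a (x j)) (ra M a p)
    rwa [lz_ra g2, lz_ra hp, g1, (C.oneχ a p ha).self_of_nhds, one_mul, one_mul] at g3
  simpa using h3.add (hu p)

theorem erg_alt [ConnectedSpace X] (hn : 0 < n) (hc : 0 < c) (hK : 0 ≤ K) (h : Op C c K A D)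
    {f : X → ℝ} (hf : M.Sm f) :
    (∃ u, M.Sm u ∧ ∀ p, 0 < D u p + f p) ∨ (∃ u, M.Sm u ∧ ∀ p, D u p + f p < 0) ∨
      ∃ (s : ℝ) (u : X → ℝ), M.Sm u ∧ (∀ p, D u p + s * f p = 0) ∧
        (s ≠ 0 ∨ ∃ p q, u p ≠ u q) := by
  have hε : ∀ j : ℕ, (0 : ℝ) < 1 / (j + 1) := fun j => by positivity
  choose U hU hE using fun j => op_disc hn hc hK h (hε j) hf
  by_cases h1 : ∃ j, ∀ p, 0 < U j p
  · obtain ⟨j, hj⟩ := h1
    exact Or.inl ⟨_, hU j, fun p => hE j p ▸ mul_pos (hε j) (hj p)⟩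
  by_cases h2 : ∃ j, ∀ p, U j p < 0
  · obtain ⟨j, hj⟩ := h2
    exact Or.inr (Or.inl ⟨_, hU j, fun p => hE j p ▸ mul_neg_of_pos_of_neg (hε j) (hj p)⟩)
  push Not at h1 h2
  choose x hx using fun j => (h1 j).elim fun p hp => (h2 j).elim fun q hq =>
    intermediate_value_univ p q (hU j).continuous ⟨hp, hq⟩
  choose y hy hy' using fun j => isCompact_univ.exists_isMaxOn univ_nonempty
    (hU j).continuous.abs.continuousOn
  obtain ⟨N, hN⟩ := op_apriori hn hc hK h hf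
  obtain ⟨S, hS⟩ : ∃ S : ℕ → ℝ, ∀ j, S j = (1 + |U j (y j)|)⁻¹ := ⟨_, fun _ => rfl⟩
  have s0 : ∀ j, 0 < S j := fun j => by rw [hS]; positivity
  have s1 : ∀ j, S j * |U j (y j)| = 1 - S j := fun j => by
    rw [hS]
    field_simp
    ring
  have s2 : ∀ j, |S j| ≤ 1 := fun j => by
    rw [abs_of_pos (s0 j)]
    linarith [s1 j, mul_nonneg (s0 j).le (abs_nonneg (U j (y j)))]
  have hW : ∀ j, M.Sm fun p => S j * U j p := fun j => sm_mul (sm_const M _) (hU j)
  have hD : ∀ j p, D (fun p => S j * U j p) p + S j * f p = 1 / (j + 1) * (S j * U j p) :=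
    fun j p => by rw [h.const_mul (hU j), ← mul_add, hE, mul_left_comm]
  have hk := fun j => hN _ _ _ (hW j) (fun p => by
    rw [abs_mul, abs_of_pos (s0 j)]
    linarith [s1 j, s0 j, mul_le_mul_of_nonneg_left (hy' j (mem_univ p)) (s0 j).le])
    (s2 j) (hε j).le (by
      rw [div_le_one (by positivity)]
      linarith [(Nat.cast_nonneg j : (0 : ℝ) ≤ j)]) (hD j)
  obtain ⟨u, hu, g1, g2⟩ := nk_lim hk
  obtain ⟨s, hs⟩ := UF_lim s2
  obtain ⟨p, hp⟩ := UF_compact isCompact_univ fun j => mem_univ (x j)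
  obtain ⟨q, hq⟩ := UF_compact isCompact_univ fun j => mem_univ (y j)
  have he : ∀ a, ∀ p ∈ tsupport (C.χ a),
      ct (A a (ra M a p)) (hz C a u (ra M a p)) = 0 * u p + -s * f p := fun a p hp => by
    have t1 : Tendsto (fun j => ct (A a (ra M a p)) (hz C a (fun p => S j * U j p) (ra M a p))) UF
        (𝓝 (ct (A a (ra M a p)) (hz C a u (ra M a p)))) :=
      tendsto_finsetSum _ fun i _ => tendsto_finsetSum _ fun l _ => (g2 a _ i l).const_mul _
    have t2 := (tendsto_one_div_add_atTop_nhds_zero_nat.mono_left UF_le).mul (g1 p)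
    simp only [← hD, fun j => h.eq _ (hW j) a p hp] at t2
    have := tendsto_nhds_unique (t1.add (hs.mul_const (f p))) t2
    linarith
  have hm := op_reg hc h hu (sm_mul (sm_const M (-s)) hf) he
  refine Or.inr (Or.inr ⟨s, u, hm, fun r => ?_, or_iff_not_imp_left.2 fun h0 => ⟨p, q, ?_⟩⟩)
  · obtain ⟨a, ha⟩ := exists_rho M r
    rw [h.eq u hm a r (C.rho_sub a ha), he a r (C.rho_sub a ha)]
    ring
  · have t1 := nk_move hk g1 hp
    have t2 := (nk_move hk g1 hq).abs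
    simp only [hx, mul_zero] at t1
    simp only [abs_mul, fun j => abs_of_pos (s0 j), s1] at t2
    have e := tendsto_nhds_unique t2 (hs.const_sub 1)
    rw [tendsto_nhds_unique t1 tendsto_const_nhds]
    intro h3
    rw [← h3, not_not.1 h0] at e
    norm_num at e

end Vale.Agent.P267
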