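import Vale.Agent.P267D.Defs
import Vale.Agent.P267D.DC
import Vale.Agent.P271.BrK

/-! P267, the drift: the operator on the base. -/

open MeasureTheory Set Filter Topology Metric Matrix
open scoped ContDiff

noncomputable section

namespace Vale.Agent.P267

open Vale.Agent.P271 Vale.Agent.P227 Vale.Agent.P272.AL

set_option linter.unusedSectionVars false

variable {X : Type} [TopologicalSpace X] [T2Space X] [CompactSpace X]

theorem DF0_hs {n : ℕ} {φ : Cn n → ℝ} {x : E (n + n)} (h : ContDiffAt ℝ ∞ φ (Lc n x)) (ξ : Cn n) :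
    ((Lc n).symm ξ).ofLp ⬝ᵥ hs (fun y => φ (Lc n y)) x *ᵥ ((Lc n).symm ξ).ofLp =
      fderiv ℝ (fderiv ℝ φ) (Lc n x) ξ ξ := by
  have h1 : fderiv ℝ (fun y => φ (Lc n y))
      = fun y => (fderiv ℝ φ (Lc n y)).comp (Lc n : E (n + n) →L[ℝ] Cn n) :=
    funext fun y => (Lc n).comp_right_fderiv
  have h3 := ((((h.fderiv_right (m := ∞) (by simp)).differentiableAt (by simp)).hasFDerivAt.comp
    x (Lc n).hasFDerivAt).clm_comp (hasFDerivAt_const (Lc n : E (n + n) →L[ℝ] Cn n) x)).fderiv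
  rw [ALCx_bil (f := fun y => φ (Lc n y)) (h.comp x (Lc n).contDiff.contDiffAt), h1]
  refine (DFunLike.congr_fun (DFunLike.congr_fun h3 _) _).trans ?_
  simp

theorem DF0_ct {ι κ : Type} [Fintype ι] [Fintype κ] {m : ℕ} (r : ι → ℝ) (w : ι → κ → Fin m → ℝ)
    (H : Mat m) : ct (.of fun i j => ∑ b, r b * ∑ k, w b k i * w b k j) H =
      ∑ b, r b * ∑ k, w b k ⬝ᵥ H *ᵥ w b k := by
  simp only [ct, of_apply, dotProduct, mulVec, Finset.sum_mul, Finset.mul_sum,
    ← Fintype.sum_prod_type']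
  refine Fintype.sum_equiv ⟨fun x => (x.2.2.1, x.2.2.2, x.1, x.2.1),
    fun x => (x.2.2.1, x.2.2.2, x.1, x.2.1), fun _ => rfl, fun _ => rfl⟩ _ _ fun x => ?_
  simp only [Equiv.coe_fn_mk]
  ring

/-- The operator `pop` is an elliptic operator in the sense of the linear theory. -/
theorem pop_op [MeasurableSpace X] (M : Model 2 X) (C : Cut M) :
    ∃ (c K : ℝ) (A : M.ι → E (2 + 2) → Mat (2 + 2)), 0 < c ∧ 0 ≤ K ∧
      Op C c K A fun u x => ∑ b, M.ρ b x * trc (u ∘ (M.e b).symm) (M.e b x) := by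
  have ho : ∀ {a b p}, p ∈ (M.e a).source → p ∈ tsupport (M.ρ b) → M.e b p ∈ M.ov b a :=
    fun {a b p} ha hb => ⟨(M.e b).map_source (M.ρ_supp b hb), by
      rwa [mem_preimage, (M.e b).left_inv (M.ρ_supp b hb)]⟩
  refine ext_op C (fun a p => .of fun i j => ∑ b, M.ρ b p * ∑ k,
    (Lc 2).symm (fderiv ℂ (M.tr b a) (M.e b p) (cb k)) i *
      (Lc 2).symm (fderiv ℂ (M.tr b a) (M.e b p) (cb k)) j) _ (fun a i j => ?_)
    (fun a p hp => ⟨IsSymm.ext fun i j => by simp only [of_apply, mul_comm], fun v hv => ?_⟩)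
    fun u hu a p hp => ?_
  · refine ContDiffOn.sum fun b _ z hz => ContDiffAt.contDiffWithinAt ?_
    by_cases h : (M.e a).symm z ∈ tsupport (M.ρ b)
    · have h1 : z ∈ M.ov a b := ⟨hz, M.ρ_supp b h⟩
      have h2 : ∀ k i, ContDiffAt ℝ ∞
          (fun y => (Lc 2).symm (fderiv ℂ (M.tr b a) (M.tr a b y) (cb k)) i) z := fun k i =>
        ((EuclideanSpace.proj i : E (2 + 2) →L[ℝ] ℝ).contDiff.comp
          (Lc 2).symm.contDiff).contDiffAt.comp z
          (((((M.hol b a _ (M.mapsTo_tr a b h1)).fderiv.comp (M.hol a b z h1)).contDiffAt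
            (n := ∞)).clm_apply contDiffAt_const).restrict_scalars ℝ)
      exact ((M.ρ_sm b a).contDiffAt ((M.e a).open_target.mem_nhds hz)).mul
        (ContDiffAt.sum fun k _ => (h2 k i).mul (h2 k j))
    · refine (contDiffAt_const (c := 0)).congr_of_eventuallyEq ?_
      filter_upwards [((M.e a).continuousAt_symm hz).eventually
        (notMem_tsupport_iff_eventuallyEq.1 h)] with y hy
      exact mul_eq_zero_of_left hy _
  · have e : ∀ B : Mat (2 + 2), v ⬝ᵥ B *ᵥ v = ct B (vecMulVec v v) := fun B => by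
      simp only [ct, dotProduct, mulVec, vecMulVec_apply, Finset.mul_sum, mul_left_comm]
    have e2 : ∀ w : Fin (2 + 2) → ℝ, w ⬝ᵥ vecMulVec v v *ᵥ w = (v ⬝ᵥ w) ^ 2 := fun w => by
      rw [vecMulVec_mulVec, dotProduct_smul, dotProduct_comm w, pow_two]
      rfl
    obtain ⟨b, -, hb⟩ := Finset.exists_ne_zero_of_sum_ne_zero ((M.ρ_sum p).trans_ne one_ne_zero)
    rw [e, DF0_ct]
    simp only [e2]
    refine Finset.sum_pos' (fun b _ => mul_nonneg (M.ρ_nonneg b p) (by positivity))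
      ⟨b, Finset.mem_univ _, mul_pos ((M.ρ_nonneg b p).lt_of_ne' hb) ?_⟩
    refine (Finset.sum_nonneg fun _ _ => sq_nonneg _).lt_of_ne' fun h0 => hv ?_
    have h1 := (Finset.sum_eq_zero_iff_of_nonneg fun _ _ => sq_nonneg _).1 h0
    obtain ⟨ξ, hξ⟩ := (LinearMap.equivOfDetNeZero _
      (M.det_tr_ne b a (ho hp (subset_tsupport _ hb)))).surjective (Lc 2 (WithLp.toLp 2 v))
    have h2 : ξ = ∑ k, (Lc 2).symm ξ k • cb k := by
      conv_lhs => rw [← (Lc 2).apply_symm_apply ξ, eq_sum_ee ((Lc 2).symm ξ)]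
      simp only [map_sum, map_smul]
      rfl
    have h3 : v = ((Lc 2).symm (fderiv ℂ (M.tr b a) (M.e b p) ξ)).ofLp :=
      congrArg WithLp.ofLp ((Lc 2).eq_symm_apply.2 hξ.symm)
    refine dotProduct_self_eq_zero.1 ((congrArg (v ⬝ᵥ ·) h3).trans ?_)
    rw [h2]
    simp only [map_sum, ContinuousLinearMap.map_smul_of_tower, map_smul, WithLp.ofLp_sum,
      WithLp.ofLp_smul, dotProduct_sum, dotProduct_smul]
    exact Finset.sum_eq_zero fun k hk => by rw [pow_eq_zero_iff two_ne_zero |>.1 (h1 k hk), smul_zero]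
  · have hF : ContDiffAt ℝ ∞ (M.loc a u) (M.e a p) :=
      (hu a).contDiffAt ((M.e a).open_target.mem_nhds ((M.e a).map_source hp))
    rw [DF0_ct]
    refine Finset.sum_congr rfl fun b _ => ?_
    by_cases hb : M.ρ b p = 0
    · rw [hb, zero_mul, zero_mul]
    have h1 := ho hp (subset_tsupport _ hb)
    have h2 : M.tr b a (M.e b p) = M.e a p :=
      congrArg (M.e a) ((M.e b).left_inv (M.ρ_supp b (subset_tsupport _ hb)))
    have h3 : ∀ j : Fin 2, lev (u ∘ (M.e b).symm) (M.e b p) (Pi.single j 1) =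
        lev (M.loc a u) (M.e a p) (fderiv ℂ (M.tr b a) (M.e b p) (Pi.single j 1)) := fun j => by
      rw [← h2, ← lev_comp (h2 ▸ hF) (M.analyticOnNhd_tr b a _ h1), lev, lev,
        ← (M.api_loc_ev b a u h1).fderiv.fderiv_eq]
      rfl
    have h4 : ∀ j : Fin 2, (Pi.single j Complex.I : Cn 2) = Complex.I • Pi.single j 1 := fun j => by
      rw [← Pi.single_smul, smul_eq_mul, mul_one]
    simp only [DF0_hs ((Lc_ra M a p).symm ▸ hF), Fin.sum_univ_add, ALCx_c, ALCx_n, h4, map_smul,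
      Fin.sum_univ_two, trc, h3, Lc_ra]
    simp only [lev]
    ring

end Vale.Agent.P267
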