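import Vale.Agent.P267D.Defs
import Vale.Agent.P267D.DC
import Vale.Agent.P267D.DE
import Vale.Agent.P271.BrK
import Vale.Agent.P267D.DF0

/-! P267, the drift: the operator on the base. -/

open MeasureTheory Set Filter Topology Metric Matrix
open scoped ContDiff

noncomputable section

namespace Vale.Agent.P267

open Vale.Agent.P271 Vale.Agent.P227 Vale.Agent.P272.AL

set_option linter.unusedSectionVars false

variable {X : Type} [TopologicalSpace X] [T2Space X] [CompactSpace X]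

theorem pop_alt [ConnectedSpace X] {m : ℕ} {Q : Fin m → OpenPartialHomeomorph X C2}
    (h1 : ∀ x, ∃ a, x ∈ (Q a).source)
    (h2 : ∀ a b, AnalyticOnNhd ℂ (fun z => Q b ((Q a).symm z))
      ((Q a).target ∩ (Q a).symm ⁻¹' (Q b).source)) :
    ∃ ρ, Pu Q ρ ∧ ∀ f : X → ℝ, (∀ b, ContDiffOn ℝ ∞ (f ∘ (Q b).symm) (Q b).target) →
      ∃ u : X → ℝ, (∀ b, ContDiffOn ℝ ∞ (u ∘ (Q b).symm) (Q b).target) ∧
        ((∀ x, 0 < pop Q ρ (fun b => u ∘ (Q b).symm) x + f x) ∨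
        (∀ x, pop Q ρ (fun b => u ∘ (Q b).symm) x + f x < 0) ∨
        ∃ s : ℝ, (∀ x, pop Q ρ (fun b => u ∘ (Q b).symm) x + s * f x = 0) ∧
          (s ≠ 0 ∨ ∃ p q, u p ≠ u q)) := by
  let : MeasurableSpace X := borel X
  have : BorelSpace X := ⟨rfl⟩
  obtain ⟨M, hM⟩ := exists_model (n := 2) ⟨Fin m, Q, h1, h2⟩
  obtain ⟨C⟩ := P272.AL.exists_cut M
  obtain ⟨c, K, A, hc, hK, h⟩ := pop_op M C
  have key := fun f hf => erg_alt (f := f) two_pos hc hK h hf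
  clear h A C
  obtain ⟨A', ρ, r1, r2, r3, r4, k, k1, k2, μ, m1⟩ := M
  subst hM
  refine ⟨ρ, ⟨r1, r2, r3, r4⟩, fun f hf => ?_⟩
  rcases key f hf with ⟨u, u1, u2⟩ | ⟨u, u1, u2⟩ | ⟨s, u, u1, u2, u3⟩
  · exact ⟨u, u1, .inl u2⟩
  · exact ⟨u, u1, .inr (.inl u2)⟩
  · exact ⟨u, u1, .inr (.inr ⟨s, u2, u3⟩)⟩

end Vale.Agent.P267
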