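import Vale.Agent.P267D.DE

/-! The strong maximum principle and the ergodic problem. -/

open MeasureTheory Set Filter Topology Metric Matrix
open scoped ContDiff

noncomputable section

namespace Vale.Agent.P267

open Vale.Agent.P271 Vale.Agent.P227 Vale.Agent.P272.AL

set_option linter.unusedSectionVars false

theorem DL_test {φ φ' : ℝ → ℝ} {a : ℝ} (h1 : ∀ t, HasDerivAt φ (φ' t) t)
    (h2 : HasDerivAt φ' a 0) (hm : ∀ᶠ t in 𝓝 0, φ t ≤ φ 0) : a ≤ 0 := by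
  have h0 : φ' 0 = 0 := IsLocalMax.hasDerivAt_eq_zero hm (h1 0)
  refine not_lt.1 fun ha => ?_
  have h3 := (hasDerivAt_iff_tendsto_slope_zero.1 h2).mono_left (nhdsGT_le_nhdsNE (0 : ℝ))
  have h4 := (h3.eventually (lt_mem_nhds ha)).and (hm.filter_mono nhdsWithin_le_nhds)
  obtain ⟨δ, hδ, hδ'⟩ := (mem_nhdsGT_iff_exists_Ioo_subset' zero_lt_one).1 h4
  have hδ0 : 0 < δ := hδ
  obtain ⟨ξ, hξ, e⟩ := exists_hasDerivAt_eq_slope φ φ' (half_pos hδ0)
    (fun t _ => (h1 t).continuousAt.continuousWithinAt) (fun t _ => h1 t)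
  have h5 : 0 < ξ⁻¹ • (φ' (0 + ξ) - φ' 0) := (hδ' ⟨hξ.1, hξ.2.trans (half_lt_self hδ0)⟩).1
  rw [h0, zero_add, sub_zero, smul_eq_mul, e] at h5
  have h6 : (φ (δ / 2) - φ 0) / (δ / 2 - 0) ≤ 0 := div_nonpos_of_nonpos_of_nonneg
    (sub_nonpos.2 (hδ' ⟨half_pos hδ0, half_lt_self hδ0⟩).2) (by linarith)
  linarith [mul_nonpos_of_nonneg_of_nonpos (inv_pos.2 hξ.1).le h6]

theorem DL_max {m : ℕ} {A : E m → Mat m} {c : ℝ} (hc : 0 < c) (hA : Ell A c) {f : E m → ℝ}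
    (hf : P227.C2 f) {x : E m} (hm : ∀ᶠ y in 𝓝 x, f y ≤ f x) : ct (A x) (hs f x) ≤ 0 := by
  refine psd_contract (PosSemidef.of_dotProduct_mulVec_nonneg (hA x).1 fun v =>
    (mul_nonneg hc.le (dotProduct_self_star_nonneg v)).trans ((hA x).2 v)) fun v => ?_
  have t : Tendsto (fun t : ℝ => x + t • WithLp.toLp 2 v) (𝓝 0) (𝓝 x) :=
    Continuous.tendsto' (by fun_prop) _ _ (by simp)
  simpa using DL_test (hasDerivAt_line hf.1 x _) (hasDerivAt_line2 hf x (WithLp.toLp 2 v) 0)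
    (by simpa using t.eventually hm)

theorem DL_bar {m : ℕ} (α : ℝ) (y : E m) :
    P227.C2 (fun x : E m => Real.exp (-α * (‖x + -y‖ ^ 2 / 2))) ∧ ∀ x i j,
      hs (fun x : E m => Real.exp (-α * (‖x + -y‖ ^ 2 / 2))) x i j =
        Real.exp (-α * (‖x + -y‖ ^ 2 / 2)) *
          (α ^ 2 * ((x + -y) i * (x + -y) j) - α * if i = j then 1 else 0) := by
  have h0 : Differentiable ℝ fun x : E m => -α * (‖x‖ ^ 2 / 2) := C2_sq.1.const_mul _
  have h1 : ∀ i, pd i (fun x : E m => Real.exp (-α * (‖x‖ ^ 2 / 2))) =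
      fun x => Real.exp (-α * (‖x‖ ^ 2 / 2)) * (-α * x i) := fun i => by
    rw [pd_comp h0 fun x => Real.hasDerivAt_exp _, pd_const_mul, pd_sq]
  have h2 : P227.C2 fun x : E m => Real.exp (-α * (‖x‖ ^ 2 / 2)) :=
    ⟨h0.exp, fun i => by rw [h1]; exact h0.exp.mul ((differentiable_coord i).const_mul _)⟩
  refine ⟨h2.shift (-y), fun x i j => ?_⟩
  rw [hs_shift (w := fun x : E m => Real.exp (-α * (‖x‖ ^ 2 / 2)))]
  simp only [hs_apply]
  rw [h1, pd_mul h0.exp ((differentiable_coord j).const_mul _), h1, pd_const_mul, pd_coord]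
  ring

theorem DL_hopf {m : ℕ} {A : E m → Mat m} {c K : ℝ} (hc : 0 < c) (hA : Ell A c) (hK : HM A K)
    {f : E m → ℝ} (hf : P227.C2 f) {x : E m}
    (h : ∀ᶠ y in 𝓝 x, f y ≤ f x ∧ 0 ≤ ct (A y) (hs f y)) : ∀ᶠ y in 𝓝 x, f y = f x := by
  obtain ⟨r, hr, h⟩ := Metric.eventually_nhds_iff.1 h
  refine Metric.eventually_nhds_iff.2 ⟨r / 3, by positivity, fun y hy => ?_⟩
  refine (h (by linarith)).1.antisymm (not_lt.1 fun h1 => ?_)
  obtain ⟨ρ, hρ, h2⟩ := Metric.eventually_nhds_iff.1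
    (hf.1.continuous.continuousAt.eventually (gt_mem_nhds (left_lt_add_div_two.2 h1)))
  obtain ⟨α, hα, h3⟩ : ∃ α : ℝ, 0 < α ∧ m * |K| < α * (c * ρ ^ 2) :=
    ⟨(m * |K| + 1) / (c * ρ ^ 2), by positivity, by rw [div_mul_cancel₀ _ (by positivity)]; simp⟩
  obtain ⟨b1, b2⟩ := DL_bar α y
  have hε : 0 < (f x - f y) / 2 := by linarith
  have hF := hf.add (b1.const_mul ((f x - f y) / 2))
  rw [dist_comm] at hy
  obtain ⟨z, hz, hz'⟩ := (isCompact_closedBall y (r / 2)).exists_isMaxOn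
    ⟨y, mem_closedBall_self (by positivity)⟩ hF.1.continuous.continuousOn
  have hzr : dist z x < r := by
    linarith [dist_triangle z y x, mem_closedBall.1 hz, dist_comm x y]
  have h4 : f x + (f x - f y) / 2 * Real.exp (-α * (‖x + -y‖ ^ 2 / 2)) ≤
      f z + (f x - f y) / 2 * Real.exp (-α * (‖z + -y‖ ^ 2 / 2)) :=
    hz' (mem_closedBall.2 (by linarith) : x ∈ closedBall y (r / 2))
  simp only [← sub_eq_add_neg, ← dist_eq_norm] at h4
  have h5 : ρ ≤ dist z y := not_lt.1 fun h5 => by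
    have h6 : Real.exp (-α * (dist z y ^ 2 / 2)) ≤ 1 := Real.exp_le_one_iff.2 (by
      have : 0 ≤ α * (dist z y ^ 2 / 2) := by positivity
      linarith)
    nlinarith [h2 h5, Real.exp_pos (-α * (dist x y ^ 2 / 2))]
  have h6 : dist z y < r / 2 := (mem_closedBall.1 hz).lt_of_ne fun h6 => by
    have h7 : Real.exp (-α * (dist z y ^ 2 / 2)) < Real.exp (-α * (dist x y ^ 2 / 2)) := by
      have : dist x y ^ 2 < dist z y ^ 2 := pow_lt_pow_left₀ (by linarith) dist_nonneg two_ne_zero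
      exact Real.exp_lt_exp.2 (by nlinarith)
    nlinarith [(h hzr).1]
  have h7 := DL_max hc hA hF (x := z) (by
    filter_upwards [isOpen_ball.mem_nhds (mem_ball.2 h6)] with w hw using
      hz' (ball_subset_closedBall hw))
  rw [hs_add hf (b1.const_mul _), hs_const_mul, ct_add, ct_smul] at h7
  have h8 : 0 < ct (A z) (hs (fun x : E m => Real.exp (-α * (‖x + -y‖ ^ 2 / 2))) z) := by
    have e1 : ∑ i, A z i i ≤ m * |K| := by
      simpa using Finset.sum_le_card_nsmul Finset.univ _ _ fun i _ =>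
        ((le_abs_self _).trans ((hK i i).1 z)).trans (le_abs_self K)
    have e2 := (hA z).2 (z + -y).ofLp
    have e3 : (z + -y).ofLp ⬝ᵥ (z + -y).ofLp = dist z y ^ 2 := by
      rw [dist_eq_norm, sub_eq_add_neg, EuclideanSpace.real_norm_sq_eq]
      simp only [dotProduct, pow_two]
    have e4 : ct (A z) (hs (fun x : E m => Real.exp (-α * (‖x + -y‖ ^ 2 / 2))) z) =
        Real.exp (-α * (‖z + -y‖ ^ 2 / 2)) *
          (α ^ 2 * ((z + -y).ofLp ⬝ᵥ A z *ᵥ (z + -y).ofLp) - α * ∑ i, A z i i) := by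
      simp only [ct, b2, dotProduct, mulVec, Finset.mul_sum, mul_sub, Finset.sum_sub_distrib,
        mul_ite, mul_one, mul_zero, Finset.sum_ite_eq, Finset.mem_univ, if_true]
      congr 1
      · exact Finset.sum_congr rfl fun i _ => Finset.sum_congr rfl fun j _ => by ring
      · exact Finset.sum_congr rfl fun i _ => by ring
    rw [e4]
    refine mul_pos (Real.exp_pos _) ?_
    have e5 : c * ρ ^ 2 ≤ c * dist z y ^ 2 := by gcongr
    have e6 : ∑ i, A z i i < α * ((z + -y).ofLp ⬝ᵥ A z *ᵥ (z + -y).ofLp) :=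
      (e1.trans_lt h3).trans_le (mul_le_mul_of_nonneg_left (e5.trans (e3 ▸ e2)) hα.le)
    nlinarith
  linarith [(h hzr).2, mul_pos hε h8]

variable {n : ℕ} {X : Type} [TopologicalSpace X] [T2Space X] [CompactSpace X]
  [MeasurableSpace X] {M : Model n X}

variable {C : Cut M} {c K : ℝ} {A : M.ι → E (n + n) → Mat (n + n)} {D : (X → ℝ) → X → ℝ}

/-- The strong maximum principle. -/
theorem op_const [ConnectedSpace X] (hc : 0 < c) (h : Op C c K A D) {u : X → ℝ} (hu : M.Sm u)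
    (h0 : ∀ p, 0 ≤ D u p) (p q : X) : u p = u q := by
  obtain ⟨y, -, hy⟩ := isCompact_univ.exists_isMaxOn univ_nonempty hu.continuous.continuousOn
  have ho : IsOpen {x | u x = u y} := isOpen_iff_mem_nhds.2 fun x hx => by
    obtain ⟨a, ha⟩ := exists_rho M x
    have hs := M.ρ_supp a ha
    have h1 : ∀ {w}, C.χ a w = 1 → C.ψ a w = 1 := fun e => C.psi_one (e ▸ one_ne_zero)
    have h2 := DL_hopf hc (h.ell a) (h.hm a) (ALPar_c2 C a hu) (x := ra M a x) (by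
      filter_upwards [(ALCut_tend hs).eventually (C.oneχ a x ha), ALCut_tgt hs] with w g1 g2
      obtain ⟨r, hr, rfl⟩ := ALCut_rep g2
      rw [Lc_ra, (M.e a).left_inv hr] at g1
      refine ⟨?_, (h0 r).trans_eq (h.eq u hu a r (subset_tsupport _ (g1.trans_ne one_ne_zero)))⟩
      rw [lz_ra hr, lz_ra hs, h1 g1, h1 (C.oneχ a x ha).self_of_nhds, one_mul, one_mul, hx]
      exact hy (mem_univ r))
    filter_upwards [(((Lc n).symm.continuous.tendsto _).comp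
      ((M.e a).continuousAt hs).tendsto).eventually h2, C.oneχ a x ha,
      (M.e a).open_source.mem_nhds hs] with r g1 g2 g3
    have g4 : lz M (C.ψ a) a u (ra M a r) = lz M (C.ψ a) a u (ra M a x) := g1
    rwa [lz_ra g3, lz_ra hs, h1 g2, h1 (C.oneχ a x ha).self_of_nhds, one_mul, one_mul, hx] at g4
  have h1 := IsClopen.eq_univ ⟨isClosed_eq hu.continuous continuous_const, ho⟩ ⟨y, rfl⟩
  exact (h1.ge (mem_univ p)).trans (h1.ge (mem_univ q)).symm

/-- The ergodic problem. -/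
theorem erg_exact [ConnectedSpace X] (hn : 0 < n) (hc : 0 < c) (hK : 0 ≤ K) (h : Op C c K A D)
    {f : X → ℝ} (hf : M.Sm f) : ∃ (u : X → ℝ) (s : ℝ), M.Sm u ∧ ∀ p, D u p + s = f p := by
  have hz : ∀ p, D (fun _ => 0) p = 0 := fun p => h.zero (sm_const M 0) EventuallyEq.rfl
  have ho : ∀ φ : X → ℝ, Continuous φ → (∀ p, 0 < φ p) → ∃ δ, 0 < δ ∧ ∀ p, δ ≤ φ p :=
    fun φ h1 h2 => (isCompact_univ.exists_isMinOn univ_nonempty h1.continuousOn).elim
      fun y hy => ⟨_, h2 y, fun p => hy.2 (mem_univ p)⟩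
  obtain ⟨N, -, hN⟩ := nk_of_sm C 0 hf
  have hb : ∀ s ∈ {s : ℝ | ∃ u, M.Sm u ∧ ∀ p, 0 < D u p + (s - f p)}, ∀ t : ℝ, ∀ v, M.Sm v →
      (∀ p, D v p + (t - f p) < 0) → t < s := fun s ⟨u, g1, g2⟩ t v g3 g4 => by
    obtain ⟨y, -, hy⟩ := isCompact_univ.exists_isMaxOn univ_nonempty
      (sm_sub g1 g3).continuous.continuousOn
    have h1 := h.max _ (sm_sub g1 g3) y fun q => hy (mem_univ q)
    rw [h.sub g1 g3] at h1
    linarith [g2 y, g4 y]
  have hne : (N + 1) ∈ {s : ℝ | ∃ u, M.Sm u ∧ ∀ p, 0 < D u p + (s - f p)} :=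
    ⟨_, sm_const M 0, fun p => by linarith [hz p, (abs_le.1 (hN.abs_le p)).2]⟩
  have hbd : BddBelow {s : ℝ | ∃ u, M.Sm u ∧ ∀ p, 0 < D u p + (s - f p)} :=
    ⟨-N - 1, fun s hs => (hb s hs _ _ (sm_const M 0) fun p => by
      linarith [hz p, (abs_le.1 (hN.abs_le p)).1]).le⟩
  obtain ⟨s, hs⟩ : ∃ s, s = sInf {s : ℝ | ∃ u, M.Sm u ∧ ∀ p, 0 < D u p + (s - f p)} := ⟨_, rfl⟩
  have hg := sm_sub (sm_const M s) hf
  rcases erg_alt hn hc hK h hg with ⟨u, g1, g2⟩ | ⟨u, g1, g2⟩ | ⟨t, u, g1, g2, g3⟩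
  · obtain ⟨δ, g3, g4⟩ := ho _ (sm_add (h.sm u g1) hg).continuous g2
    have := csInf_le hbd (a := s - δ / 2) ⟨u, g1, fun p => by linarith [g4 p]⟩
    linarith
  · obtain ⟨δ, g3, g4⟩ := ho _ (sm_add (h.sm u g1) hg).continuous.fun_neg fun p =>
      neg_pos.2 (g2 p)
    have := le_csInf ⟨_, hne⟩ fun t ht => (hb t ht (s + δ / 2) u g1 fun p => by
      linarith [g4 p]).le
    linarith
  · rcases eq_or_ne t 0 with rfl | ht
    · obtain ⟨p, q, e⟩ := g3.resolve_left fun e => e rfl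
      exact absurd (op_const hc h g1 (fun p => by linarith [g2 p]) p q) e
    · refine ⟨_, s, sm_mul (sm_const M t⁻¹) g1, fun p => ?_⟩
      rw [h.const_mul g1, eq_neg_of_add_eq_zero_left (g2 p), mul_neg, inv_mul_cancel_left₀ ht]
      ring

end Vale.Agent.P267
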