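import Vale.Agent.P267D.DA0
import Vale.Agent.P267D.DB
import Vale.Agent.P267D.DF
import Vale.Agent.P267D.DI
import Vale.Agent.P267D.DJ
import Vale.Agent.P267D.DK

/-! P267: the drift from the first Betti number. -/

open scoped Manifold ContDiff Topology
open Filter Metric Set

noncomputable section

namespace Vale.Agent.P267

set_option linter.unusedSectionVars false

variable {X M : Type} [TopologicalSpace X] [ChartedSpace C2 X] [T2Space X] [CompactSpace X]
  [IsManifold 𝓘(ℂ, C2) ω X] [TopologicalSpace M] [ChartedSpace C2 M] [T2Space M]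
  [IsManifold 𝓘(ℂ, C2) ω M] {π : M → X} {g : M ≃ₜ M}

theorem IsCyclic.drift [ConnectedSpace M] (h : IsCyclic π g) (hb : firstBetti X = 1)
    {k : M → M → ℂ} {r : ℕ} {Λ : Fin r → M → M → ℂ} {c : (M → M → ℂ) → Fin r → ℤ}
    (hL : IsLattice g k Λ c) : (∃ t, IsCover π g t) ∨ ∃ t, IsCover π g⁻¹ t := by
  have : ConnectedSpace X := h.surj.connectedSpace h.loc.contMDiff.continuous
  obtain ⟨m, P, Q, L⟩ := h.lay
  obtain ⟨ρ, hρ, H⟩ := pop_alt L.cover L.hol
  obtain ⟨t, ht⟩ := L.height h hρ
  obtain ⟨u, hu, H⟩ := H (pop Q ρ fun b => t ∘ (P b).symm) (pop_sm L.hol hρ fun b z hz =>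
    (ht.cd (L.isCh b) (L.tgt b ▸ hz)).contDiffWithinAt)
  have hu' := L.sm_pull h hu
  rcases H with H | H | ⟨s, H, H'⟩
  · have h1 := ht.lin hu' 1
    refine Or.inl ⟨_, h.loc, h.surj, h.fib, h.hol, h.hol_inv, h1.sm, fun p => by
      simpa using h1.shift p, L.drift h hρ h1 fun x => ?_⟩
    have h2 := L.pop_lin h hρ ht hu 1 x
    simp only [Function.comp_apply] at h2 ⊢
    rw [h2]
    linarith [H x]
  · have hv : ∀ b, ContDiffOn ℝ ∞ ((fun x => -u x) ∘ (Q b).symm) (Q b).target := fun b =>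
      (hu b).neg
    have h1 := ht.lin (L.sm_pull h hv) (-1)
    have hi := h.inv
    refine Or.inr ⟨_, hi.loc, hi.surj, hi.fib, hi.hol, hi.hol_inv, h1.sm, fun p => ?_,
      L.drift h hρ h1 fun x => ?_⟩
    · have h2 := h1.gz (-1) p
      rw [zpow_neg_one] at h2
      rw [h2]
      norm_num
    · have h2 := L.pop_lin h hρ ht hv (-1) x
      have h3 := pop_neg (Q := Q) (ρ := ρ) (fun b => u ∘ (Q b).symm) x
      simp only [Function.comp_def] at h2 h3 H ⊢
      rw [h2, h3]
      linarith [H x]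
  · have h1 := ht.lin hu' s
    have h2 := L.const h h1 hb (L.flat h hρ h1 hL fun x => by
      have h2 := L.pop_lin h hρ ht hu s x
      simp only [Function.comp_apply] at h2 ⊢
      rw [h2]
      linarith [H x])
    exfalso
    rcases eq_or_ne s 0 with rfl | hs
    · obtain ⟨x, y, hxy⟩ := H'.resolve_left fun h => h rfl
      obtain ⟨p, rfl⟩ := h.surj x
      obtain ⟨q, rfl⟩ := h.surj y
      exact hxy (by simpa using h2 p q)
    · obtain ⟨p⟩ : Nonempty M := inferInstance
      have h3 := h1.shift p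
      rw [h2 (g p) p] at h3
      exact hs (by linarith)

end Vale.Agent.P267
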