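import Vale.Agent.P267L.LT5
import Vale.Agent.P267.GG
import Vale.Agent.P267.StmtNef

/-! P267: if the canonical class is numerically effective, no flat twist of the canonical bundle
has a section. -/

open scoped Manifold ContDiff Topology ENNReal
open Filter Metric Set MeasureTheory

noncomputable section

namespace Vale.Agent.P267

set_option linter.unusedSectionVars false

variable {M : Type} [TopologicalSpace M] [ChartedSpace C2 M] [T2Space M]

variable {X : Type} [TopologicalSpace X] [ChartedSpace C2 X] [T2Space X] [IsManifold 𝓘(ℂ, C2) ω X]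
  [IsManifold 𝓘(ℂ, C2) ω M] {π : M → X} {g : M ≃ₜ M} {t : M → ℝ}

/-- The working model exists for every cover. -/
theorem IsCover.nef_cov [CompactSpace X] (h : IsCover π g t) :
    ∃ C : Cov M, C.g = g ∧ C.t = t := by
  obtain ⟨m, e, idx, R, hp⟩ := h.pre
  obtain ⟨ρ, r1, r2, r3, r4⟩ := hp.part
  obtain ⟨k₀, k1, k2, k3⟩ := h.frames hp
  obtain ⟨l, l1, l2, l3⟩ := hp.normal k1 k2
  refine ⟨{ g := g, t := t, ι := Fin m, e := e, idx := idx, ρ := ρ
            kc := fun a q => k₀ a q / l q
            R := R, tgt := hp.tgt, idx_mem := hp.idx_mem, idx_g := hp.idx_g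
            hol := fun a => (hp.isCh a).hol
            sm := fun a => (hp.isCh a).sm
            hol_g := fun f p => by simpa only [zpow_one] using hp.hol_gz 1 f p
            sm_g := fun f p => by simpa only [zpow_one] using hp.sm_gz 1 f p
            t_sm := h.smooth, shift := h.shift, t_bd := hp.t_bd
            drift := fun a z hz => by
              rw [← hp.tgt a] at hz
              have := drift_ch (h.smooth _) (h.drift _) (hp.isCh a) ((e a).map_target hz)
              rwa [(e a).right_inv hz] at this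
            ρ_sm := r1, ρ_nonneg := r2, ρ_supp := r3, ρ_sum := r4
            kc_ne := fun a p hq => div_ne_zero (k1 a p hq) (l1 p)
            kc_sm := l3
            kc_tr := fun a b k p h1 h2 => by rw [k2 a b k p h1 h2, l2, mul_div_assoc] },
    rfl, rfl⟩

/-- A bundle whose frames are smooth multiples of the canonical frames has the canonical class. -/
theorem Cov.nef_class {C : Cov M} (h : IsCover π C.g C.t) {N m : ℕ} (hN : 0 < N)
    {L : Fin m → M → M → ℂ} {c : (M → M → ℂ) → Fin m → ℤ}
    (hL : IsLattice (C.g ^ N) (pull π (canon X)) L c) {v : M → M → ℂ} (hv : IsBundle HolAt v)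
    (hv' : pull (C.g ^ N : M ≃ₜ M) v = v)
    (hs : ∀ p, ∃ w : M → ℂ, SmAt w p ∧ v p = w * pull π (canon X) p) :
    c v = c (pull π (canon X)) := by
  have hG : ContMDiff 𝓘(ℂ, C2) 𝓘(ℂ, C2) ω (C.g ^ N : M ≃ₜ M) := by
    have := contMDiff_zpow C.g h.hol h.hol_inv N
    rwa [zpow_natCast] at this
  obtain ⟨n, P, ψ, hP, hCh, -⟩ := C.partition hN
  choose Φ l hΦ hΦp hl0 hlp hls using fun j => Cov.frames_of hN (hL.hol j).1 (hL.hol j).2
    fun i => hL.frame j (C.ch i) 4 (C.isCh i).hol (C.ch_target i)
  have hS : ∀ j, C.SFr (Φ j) := fun j => (hΦ j).sFr (by norm_num)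
  have hϑ : ∀ j, ∃ ϑ, IsConnection (C.g ^ N : M ≃ₜ M) (L j) ϑ := fun j => by
    obtain ⟨ϑ, hϑ, -⟩ := ((hS j).can.toS (hS j) (hΦp j).can).equiv hG (hS j).bundle
      (LT5_sm (hL.hol j).1) (hΦp j).bundle (hL.hol j).2 (hl0 j) (hlp j) (hls j)
    exact ⟨ϑ, hϑ⟩
  have key : ∀ {F : C.I → M → ℂ} {v : M → M → ℂ} {l : M → ℂ}, C.SFr F → C.Pd N F →
      IsBundle HolAt v → pull (C.g ^ N : M ≃ₜ M) v = v → (∀ p, l p ≠ 0) →
      (∀ p, l ((C.g ^ N) p) = l p) → (∀ p, SmAt (v p * l / C.bun F p) p) → c (C.bun F) = c v :=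
    fun hF hFp hv hv' h0 h1 h2 => LT5_key hG hL hP hCh hϑ hF.bundle (LT5_sm hv) hFp.bundle hv'
      (hF.can.toS hF hFp.can) h0 h1 h2
  obtain ⟨k1, k2, l', k3, k4, k5⟩ := Cov.canon_kf h
  have e1 := key (Cov.hFr_kf.sFr (by norm_num)) (Cov.pd_kf N) k1 (k2 N) k3 (k4 N) k5
  have e2 := key (Cov.hFr_kf.sFr (by norm_num)) (Cov.pd_kf N) hv hv' k3 (k4 N) fun p => by
    obtain ⟨w, hw, e⟩ := hs p
    rw [e, mul_assoc, mul_div_assoc]
    exact hw.mul (k5 p)
  exact e2.symm.trans e1

/-- If the canonical class of one finite cyclic cover is numerically effective and the lattice is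
not zero, then no flat twist of the canonical bundle has a section. -/
theorem noTwisted_of_nef [CompactSpace X] (h : IsCover π g t) {N m : ℕ} (hN : 0 < N) (hm : 0 < m)
    {L : Fin m → M → M → ℂ} {c : (M → M → ℂ) → Fin m → ℤ}
    (hL : IsLattice (g ^ N) (pull π (canon X)) L c)
    (hn : Nef (g ^ N : M ≃ₜ M) (pull π (canon X)) c) : NoTwistedCanonical π g := by
  obtain ⟨C, rfl, rfl⟩ := h.nef_cov
  intro b s hs hb
  by_contra h0
  have hb0 : b ≠ 0 := by
    rintro rfl
    refine h0 (funext fun p => ?_)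
    have := hb (C.g.symm p)
    rwa [C.g.apply_symm_apply, zero_mul] at this
  obtain ⟨k1, k2, -⟩ := Cov.canon_kf h
  set k := pull π (canon X) with hk
  set a := Complex.log b with ha
  have hea : Complex.exp a = b := Complex.exp_log hb0
  let v : M → M → ℂ := fun p x => Complex.exp (a * (C.t x - C.t p)) * k p x
  have ht : ∀ p, C.t ((C.g ^ N) p) = C.t p + N := fun p => by
    have := h.t_gz N p
    rwa [zpow_natCast, Int.cast_natCast] at this
  have hv : IsBundle HolAt v := fun p => by
    filter_upwards [k1 p] with q hq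
    refine ⟨mul_ne_zero (Complex.exp_ne_zero _) hq.1, ?_⟩
    have e : v p / v q = (fun _ => Complex.exp (a * (C.t q - C.t p))) * (k p / k q) := by
      funext x
      simp only [v, Pi.div_apply, Pi.mul_apply]
      rw [mul_div_mul_comm, ← Complex.exp_sub]
      congr 2
      ring
    rw [e]
    exact (holAt_const _).mul hq.2
  have hv' : pull (C.g ^ N : M ≃ₜ M) v = v := by
    funext p x
    have e : k ((C.g ^ N) p) ((C.g ^ N) x) = k p x := congrFun (congrFun (k2 N) p) x
    simp only [pull, v]
    rw [e, ht, ht]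
    push_cast
    congr 2
    ring
  have hc := Cov.nef_class h hN hL hv hv' fun p =>
    ⟨fun x => Complex.exp (a * (C.t x - C.t p)),
      ((smAt_const a).mul ((h.smooth p).sub (smAt_const _))).exp, rfl⟩
  let s' : M → ℂ := fun x => Complex.exp (-(a * C.t x)) * s x
  have hs1 : ∀ x, s' (C.g x) = s' x := fun x => by
    simp only [s']
    rw [hb, h.shift, ← hea, ← mul_assoc, ← Complex.exp_add]
    push_cast
    congr 2
    ring
  have hs2 : ∀ (n : ℕ) x, s' ((C.g ^ n) x) = s' x := fun n => by
    induction n with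
    | zero => exact fun x => rfl
    | succ n ih =>
      intro x
      rw [pow_succ']
      exact (hs1 _).trans (ih x)
  have hmem : s' ∈ H0 (C.g ^ N : M ≃ₜ M) v := by
    refine Submodule.subset_span ⟨funext (hs2 N), fun p => ?_⟩
    have e : v p * s' = (fun _ => Complex.exp (-(a * C.t p))) * (k p * s) := by
      funext x
      simp only [v, s', Pi.mul_apply]
      rw [mul_mul_mul_comm, ← Complex.exp_add]
      congr 2
      ring
    rw [e]
    exact (holAt_const _).mul (hs p)
  have hne : H0 (C.g ^ N : M ≃ₜ M) v ≠ ⊥ := fun e => by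
    rw [e, Submodule.mem_bot] at hmem
    refine h0 (funext fun x => ?_)
    have := congrFun hmem x
    simpa [s', Complex.exp_ne_zero] using this
  have := hn v hv hv' hne
  rw [hc, hL.canonical] at this
  simp at this
  omega

end Vale.Agent.P267
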